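import Vale.Agent.P092.SD.Defs
import Vale.Agent.P092.H899.Simple

/-!
P092 (helper801), Team D, block [D-PUR]: the two opposite wall parabolics generate `SL_3(k)`.
-/

set_option linter.all false

open Filter Topology Matrix Matrix.SpecialLinearGroup

namespace Vale.Agent.P092.H801

open Vale.Agent.P092.SD

variable {k : Type} [NontriviallyNormedField k]

/-- the diagonal entries of `bw w` -/
def bd (w : kˣ) : Fin 3 → k := ![((w⁻¹ : kˣ) : k) ^ 2, (w : k), (w : k)]

theorem bw_coe (w : kˣ) : (bw w).1 = Matrix.diagonal (bd w) := rfl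

theorem bd_inv (w : kˣ) (i : Fin 3) : bd w⁻¹ i = (bd w i)⁻¹ := by
  fin_cases i <;> simp [bd]

theorem bd_ne (w : kˣ) (i : Fin 3) : bd w i ≠ 0 := by
  fin_cases i <;> simp [bd]

theorem bw_mul_inv (w : kˣ) : bw w * bw w⁻¹ = 1 := by
  apply Subtype.ext
  change (bw w).1 * (bw w⁻¹).1 = 1
  rw [bw_coe, bw_coe, Matrix.diagonal_mul_diagonal, ← Matrix.diagonal_one]
  congr 1
  funext i
  rw [bd_inv, mul_inv_cancel₀ (bd_ne w i)]

/-- the inverse of `bw w` -/
theorem bw_inv (w : kˣ) : (bw w)⁻¹ = bw w⁻¹ := inv_eq_of_mul_eq_one_right (bw_mul_inv w)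

theorem bw_pow (w : kˣ) (N : ℕ) : ((bw w) ^ N).1 = Matrix.diagonal fun i => bd w i ^ N := by
  rw [Matrix.SpecialLinearGroup.coe_pow, bw_coe, Matrix.diagonal_pow]
  rfl

/-- conjugation by powers of the wall element, in coordinates -/
theorem conj_apply (w : kˣ) (N : ℕ) (g : G3 k) (i j : Fin 3) :
    ((bw w) ^ N * g * ((bw w)⁻¹) ^ N).1 i j = (bd w i * (bd w j)⁻¹) ^ N * g.1 i j := by
  rw [bw_inv, Matrix.SpecialLinearGroup.coe_mul, Matrix.SpecialLinearGroup.coe_mul, bw_pow, bw_pow,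
    Matrix.mul_diagonal, Matrix.diagonal_mul, bd_inv, mul_pow]
  ring

theorem transvection_apply {i j : Fin 3} (h : i ≠ j) (c : k) (p q : Fin 3) :
    (transvection h c : G3 k).1 p q = (1 : Matrix (Fin 3) (Fin 3) k) p q +
      if i = p ∧ j = q then c else 0 := by
  rw [transvection_coe, Matrix.add_apply, Matrix.single_apply]

/-- conjugates of a transvection tend to `1` -/
theorem tendsto_of_lt (w : kˣ) {i j : Fin 3} (h : i ≠ j) (c : k)
    (hl : ‖bd w i * (bd w j)⁻¹‖ < 1) :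
    Tendsto (fun N => (bw w) ^ N * (transvection h c : G3 k) * ((bw w)⁻¹) ^ N) atTop (𝓝 1) := by
  refine tendsto_subtype_rng.2 ?_
  refine tendsto_pi_nhds.2 fun p => tendsto_pi_nhds.2 fun q => ?_
  have e : ∀ N : ℕ, ((bw w) ^ N * (transvection h c : G3 k) * ((bw w)⁻¹) ^ N).1 p q =
      (1 : Matrix (Fin 3) (Fin 3) k) p q +
        if i = p ∧ j = q then (bd w i * (bd w j)⁻¹) ^ N * c else 0 := by
    intro N
    rw [conj_apply, transvection_apply]
    by_cases hpq : p = q
    · subst hpq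
      rw [if_neg (fun h' => h (h'.1.trans h'.2.symm)), if_neg (fun h' => h (h'.1.trans h'.2.symm)),
        mul_inv_cancel₀ (bd_ne w p)]
      simp
    · rw [Matrix.one_apply_ne hpq, zero_add, zero_add]
      by_cases h2 : i = p ∧ j = q
      · rw [if_pos h2, if_pos h2, h2.1, h2.2]
      · rw [if_neg h2, if_neg h2, mul_zero]
  have h3 : Tendsto (fun N : ℕ => (1 : Matrix (Fin 3) (Fin 3) k) p q +
        if i = p ∧ j = q then (bd w i * (bd w j)⁻¹) ^ N * c else 0) atTop
        (𝓝 ((1 : Matrix (Fin 3) (Fin 3) k) p q + 0)) := by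
    refine tendsto_const_nhds.add ?_
    by_cases h2 : i = p ∧ j = q
    · simp only [if_pos h2]
      have := (tendsto_pow_atTop_nhds_zero_of_norm_lt_one hl).mul_const c
      rwa [zero_mul] at this
    · simp only [if_neg h2]
      exact tendsto_const_nhds
  rw [add_zero] at h3
  refine h3.congr fun N => ?_
  exact (e N).symm

theorem bd_eq (w : kˣ) {i j : Fin 3} (hi : i ≠ 0) (hj : j ≠ 0) : bd w i = bd w j := by
  fin_cases i <;> fin_cases j <;> simp_all [bd]

theorem ratio_lt (w : kˣ) (hw : ‖(w : k)‖ < 1) {i : Fin 3} (hi : i ≠ 0) :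
    ‖bd w i * (bd w 0)⁻¹‖ < 1 := by
  have e : bd w i * (bd w 0)⁻¹ = (w : k) ^ 3 := by
    have h1 : bd w i = (w : k) := by fin_cases i <;> simp_all [bd]
    have h2 : (bd w 0)⁻¹ = (w : k) ^ 2 := by simp [bd]
    rw [h1, h2]
    ring
  rw [e, norm_pow]
  exact pow_lt_one₀ (norm_nonneg _) hw (by norm_num)

theorem commute_of (w : kˣ) {i j : Fin 3} (h : i ≠ j) (hi : i ≠ 0) (hj : j ≠ 0) (c : k) :
    Commute (transvection h c : G3 k) (bw w) := by
  apply Subtype.ext
  change (transvection h c : G3 k).1 * (bw w).1 = (bw w).1 * (transvection h c : G3 k).1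
  ext p q
  rw [bw_coe, Matrix.mul_diagonal, Matrix.diagonal_mul, transvection_apply]
  by_cases hpq : p = q
  · subst hpq
    ring
  · rw [Matrix.one_apply_ne hpq, zero_add]
    by_cases h2 : i = p ∧ j = q
    · rw [if_pos h2, ← h2.1, ← h2.2, bd_eq w hi hj]
      ring
    · rw [if_neg h2]
      ring

/-- The centraliser of the wall element and its two contraction groups generate `SL_3(k)`. -/
theorem closure_wall (w : kˣ) (hw : ‖(w : k)‖ < 1) {Q Q' : Set (G3 k)}
    (hc : ∀ g, Commute g (bw w) → g ∈ Q)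
    (hn : ∀ g, Tendsto (fun N => ((bw w)⁻¹) ^ N * g * (bw w) ^ N) atTop (𝓝 1) → g ∈ Q)
    (hn' : ∀ g, Tendsto (fun N => (bw w) ^ N * g * ((bw w)⁻¹) ^ N) atTop (𝓝 1) → g ∈ Q') :
    Subgroup.closure (Q ∪ Q') = ⊤ := by
  refine H899.eq_top_of_e _ fun i j hij c => Subgroup.subset_closure ?_
  by_cases hi : i = 0
  · left
    apply hn
    have h1 := tendsto_of_lt (w := w⁻¹) hij c (by
      rw [bd_inv, bd_inv, inv_inv, hi, mul_comm]
      exact ratio_lt w hw fun h => hij (hi.trans h.symm))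
    rw [← bw_inv, inv_inv] at h1
    exact h1
  · by_cases hj : j = 0
    · right
      apply hn'
      refine tendsto_of_lt w hij c ?_
      rw [hj]
      exact ratio_lt w hw hi
    · left
      exact hc _ (commute_of w hij hi hj c)

/-- The same for a conjugate of the wall element. -/
theorem closure_wall_conj (w : kˣ) (hw : ‖(w : k)‖ < 1) (x : G3 k) {Q Q' : Set (G3 k)}
    (hc : ∀ g, Commute g (x * bw w * x⁻¹) → g ∈ Q)
    (hn : ∀ g, Tendsto (fun N => ((x * bw w * x⁻¹)⁻¹) ^ N * g * (x * bw w * x⁻¹) ^ N) atTop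
      (𝓝 1) → g ∈ Q)
    (hn' : ∀ g, Tendsto (fun N => (x * bw w * x⁻¹) ^ N * g * ((x * bw w * x⁻¹)⁻¹) ^ N) atTop
      (𝓝 1) → g ∈ Q') :
    Subgroup.closure (Q ∪ Q') = ⊤ := by
  have e1 : ∀ N : ℕ, (x * bw w * x⁻¹) ^ N = x * bw w ^ N * x⁻¹ := fun N => conj_pow
  have e2 : ∀ N : ℕ, ((x * bw w * x⁻¹)⁻¹) ^ N = x * (bw w)⁻¹ ^ N * x⁻¹ := fun N => by
    rw [inv_pow, e1, inv_pow]
    group
  have hcont : ∀ y : ℕ → G3 k, Tendsto y atTop (𝓝 1) →
      Tendsto (fun N => x * y N * x⁻¹) atTop (𝓝 1) := by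
    intro y hy
    have := (hy.const_mul x).mul_const x⁻¹
    rwa [mul_one, mul_inv_cancel] at this
  have h1 := closure_wall w hw (Q := {g | x * g * x⁻¹ ∈ Q}) (Q' := {g | x * g * x⁻¹ ∈ Q'}) ?_ ?_ ?_
  · refine top_le_iff.1 fun g _ => ?_
    have h2 : x⁻¹ * g * x ∈ Subgroup.closure ({g | x * g * x⁻¹ ∈ Q} ∪ {g | x * g * x⁻¹ ∈ Q'}) := by
      rw [h1]
      trivial
    have h3 : Subgroup.closure ({g | x * g * x⁻¹ ∈ Q} ∪ {g | x * g * x⁻¹ ∈ Q'}) ≤
        (Subgroup.closure (Q ∪ Q')).comap (MulAut.conj x).toMonoidHom := by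
      rw [Subgroup.closure_le]
      rintro y (hy | hy)
      · exact Subgroup.subset_closure (Or.inl hy)
      · exact Subgroup.subset_closure (Or.inr hy)
    have h4 := h3 h2
    rw [Subgroup.mem_comap] at h4
    have e : (MulAut.conj x).toMonoidHom (x⁻¹ * g * x) = g := by
      change x * (x⁻¹ * g * x) * x⁻¹ = g
      group
    rwa [e] at h4
  · intro g hg
    apply hc
    have : (x * g * x⁻¹) * (x * bw w * x⁻¹) = (x * bw w * x⁻¹) * (x * g * x⁻¹) := by
      have h5 : g * bw w = bw w * g := hg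
      calc _ = x * (g * bw w) * x⁻¹ := by group
        _ = x * (bw w * g) * x⁻¹ := by rw [h5]
        _ = _ := by group
    exact this
  · intro g hg
    apply hn
    refine (hcont _ hg).congr fun N => ?_
    rw [e1, e2]
    group
  · intro g hg
    apply hn'
    refine (hcont _ hg).congr fun N => ?_
    rw [e1, e2]
    group

end Vale.Agent.P092.H801
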