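import Vale.Agent.P092.H761.CoarseD
import Vale.Agent.P092.H931.Br
import Vale.Agent.P092.H142.Tr
import Vale.Agent.P092.H368.MsI
import Vale.Agent.P092.H34.PicD

/-!
P092 (helper801), Team D, block [I-J]: the unitary `J : ℓ²((Γ × Γ) × Unit) → ℓ²(Λ × Λ)` of a
frame, which carries the row model (left translations, `Vp`, multiplication by functions of the
first coordinate) to the picture (`RR₁`, `RR₂`, `VV`, helper368's `m0`), and the same on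
`L²(E ⧸ Γ; ·)`.
-/

set_option linter.all false

open scoped InnerProductSpace ENNReal
open Filter Topology ContinuousLinearMap MeasureTheory

namespace Vale.Agent.P092.H801

open Vale.Agent.P092.H160 Vale.Agent.P092.H432 Vale.Agent.P092.H553
open Vale.Agent.P092.H761 (sg rei_sg rei_sg_symm arep_cj lx_sg sg_symm_ep CovFam
  ET TD coarse_V covFam_coarse et_lx)
open Vale.Agent.P092.H142 (JL JL_ae uc_W)

section fib

/-- reindexing as an isometric isomorphism -/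
noncomputable def reE {X Y : Type} (e : X ≃ Y) : Ell2 X ≃ₗᵢ[ℂ] Ell2 Y where
  toFun := rei e
  invFun := rei e.symm
  map_add' := map_add _
  map_smul' := map_smul _
  left_inv v := by rw [rei_rei, Equiv.self_trans_symm, rei_refl]
  right_inv v := by rw [rei_rei, Equiv.symm_trans_self, rei_refl]
  norm_map' := norm_rei e

theorem reE_dl {X Y : Type} (e : X ≃ Y) (x : X) : reE e (dl x) = dl (e x) := rei_dl e x

variable {Γ Λ : Type} [Group Γ] [Group Λ] {α : Γ →* (Ell2 Λ →L[ℂ] Ell2 Λ)} (hα : Frame α)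

/-- the unitary `J` -/
noncomputable def JU : Ell2 ((Γ × Γ) × Unit) ≃ₗᵢ[ℂ] Ell2 (Λ × Λ) :=
  (reE (sg (Γ × Γ)).symm).trans (H931.UU hα)

theorem JU_apply (ξ : Ell2 ((Γ × Γ) × Unit)) :
    JU hα ξ = H931.WW hα (rei (sg (Γ × Γ)).symm ξ) := rfl

theorem JU_lx (g h : Γ) (ξ : Ell2 ((Γ × Γ) × Unit)) :
    JU hα (lx (g, h) ξ) = SR.RR₁ α g (SR.RR₂ α h (JU hα ξ)) := by
  obtain ⟨v, rfl⟩ : ∃ v, rei (sg (Γ × Γ)) v = ξ := ⟨_, rei_sg ξ⟩
  rw [lx_sg, JU_apply, JU_apply, rei_sg_symm, rei_sg_symm, H931.WW_rho]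

theorem JU_lx₁ (g : Γ) (ξ : Ell2 ((Γ × Γ) × Unit)) :
    JU hα (lx (g, (1 : Γ)) ξ) = SR.RR₁ α g (JU hα ξ) := by
  rw [JU_lx, map_one]; rfl

theorem JU_lx₂ (g : Γ) (ξ : Ell2 ((Γ × Γ) × Unit)) :
    JU hα (lx ((1 : Γ), g) ξ) = SR.RR₂ α g (JU hα ξ) := by
  rw [JU_lx, map_one]; rfl

/-- the source representation in the row model -/
noncomputable def Vp (g : Γ) : Ell2 ((Γ × Γ) × Unit) →L[ℂ] Ell2 ((Γ × Γ) × Unit) :=
  H761.cj (H931.V (H931.dual_frame hα) g)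

theorem JU_V (g : Γ) (ξ : Ell2 ((Γ × Γ) × Unit)) :
    JU hα (Vp hα g ξ) = SR.VV α g (JU hα ξ) := by
  rw [JU_apply, Vp, H761.cj_apply, rei_sg_symm, H931.WW_V]; rfl

theorem arep_Vp : ARep 1 (Vp hα) :=
  arep_cj (V := fun g => H931.V (H931.dual_frame hα) g) (map_one _) (fun v w => map_mul _ v w)
    (fun v => H931.V_adj _ v) (fun v s => H931.V_rho _ v s) fun v hv => H931.inner_V _ v hv

/-- the covariant family on the fibre -/
noncomputable def EV (A : Set Γ) : Ell2 ((Γ × Γ) × Unit) →L[ℂ] Ell2 ((Γ × Γ) × Unit) :=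
  ET (TD (H931.dual_frame hα)) A

theorem covFam_EV : CovFam (Vp hα) (EV hα) := covFam_coarse (coarse_V (H931.dual_frame hα))

theorem EV_lx (A : Set Γ) (q : Γ) :
    EV hα A * lx ((1 : Γ), q) = lx ((1 : Γ), q) * EV hα A :=
  et_lx (coarse_V (H931.dual_frame hα)) A q

theorem JU_ep (i : Unit) : JU hα (ep i) = dl 1 := by
  rw [JU_apply, sg_symm_ep, H931.WW_one]

theorem JU_dl (g h : Γ) (i : Unit) :
    JU hα (dl ((g, h), i)) = SR.RR₁ α g (SR.RR₂ α h (dl 1)) := by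
  rw [← JU_ep hα i, ← JU_lx, lx_ep]

/-- the basis `RR₁ γ (RR₂ s δ_1)` -/
noncomputable def bas : HilbertBasis (Γ × Γ) ℂ (Ell2 (Λ × Λ)) :=
  ⟨(JU hα).symm.trans (reE (Equiv.prodPUnit (Γ × Γ)))⟩

theorem bas_eq (x : Γ × Γ) : bas hα x = JU hα (dl (x, ())) := by
  have h1 : (bas hα).repr (JU hα (dl (x, ()))) = dl x := by
    change reE (Equiv.prodPUnit (Γ × Γ)) ((JU hα).symm (JU hα (dl (x, ())))) = _
    rw [LinearIsometryEquiv.symm_apply_apply, reE_dl]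
    rfl
  have h2 : (bas hα).repr (bas hα x) = dl x := by
    classical
    rw [HilbertBasis.repr_self, dl]
    congr
    funext a b
    exact Subsingleton.elim _ _
  exact (bas hα).repr.injective (h2.trans h1.symm)

theorem bas_apply (g h : Γ) : bas hα (g, h) = SR.RR₁ α g (SR.RR₂ α h (dl 1)) := by
  rw [bas_eq, JU_dl]

/-- the position projections in the row model and in the picture -/
theorem JU_mp (S : Set Γ) (ξ : Ell2 ((Γ × Γ) × Unit)) :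
    JU hα (mp Unit (H538.ind fun x : Γ × Γ => x.1 ∈ S) ξ) =
      H368.m0 (bas hα) Prod.fst S (JU hα ξ) := by
  have h1 : ((JU hα : Ell2 ((Γ × Γ) × Unit) →L[ℂ] Ell2 (Λ × Λ)) ∘L
      mp Unit (H538.ind fun x : Γ × Γ => x.1 ∈ S)) =
      (H368.m0 (bas hα) Prod.fst S) ∘L (JU hα : Ell2 ((Γ × Γ) × Unit) →L[ℂ] Ell2 (Λ × Λ)) := by
    apply op_ext
    rintro ⟨x, ⟨⟩⟩
    have e : (mp Unit (H538.ind fun x : Γ × Γ => x.1 ∈ S) (dl (x, ())) :
        Ell2 ((Γ × Γ) × Unit)) = (H538.ind (fun x : Γ × Γ => x.1 ∈ S) x : ℂ) • dl (x, ()) := by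
      apply ext_inner_dl
      intro y
      rw [mp, mo_apply (F := fun y : (Γ × Γ) × Unit => H538.ind (fun x : Γ × Γ => x.1 ∈ S) y.1)
        (fun y => H538.abs_ind_le _ _)]
      change _ = (H538.ind (fun x : Γ × Γ => x.1 ∈ S) x : ℂ) *
        (dl (x, ()) : Ell2 ((Γ × Γ) × Unit)) y
      by_cases hy : y = (x, ())
      · rw [hy]
      · rw [dl_ne hy, mul_zero, mul_zero]
    change JU hα (mp Unit _ (dl (x, ()))) = H368.m0 (bas hα) Prod.fst S (JU hα (dl (x, ())))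
    rw [e, map_smul, ← bas_eq]
    by_cases hx : x.1 ∈ S
    · rw [H538.ind_pos (P := fun x : Γ × Γ => x.1 ∈ S) hx,
        H368.m0_mem (b := bas hα) (f := Prod.fst) hx]
      simp
    · rw [H538.ind_neg (P := fun x : Γ × Γ => x.1 ∈ S) hx,
        H368.m0_notMem (b := bas hα) (f := Prod.fst) hx]
      simp
  exact congrArg (fun T : Ell2 ((Γ × Γ) × Unit) →L[ℂ] Ell2 (Λ × Λ) => T ξ) h1

end fib

section lpg

variable {X : Type} [MeasurableSpace X] {μ : Measure X} {K K' : Type} [NormedAddCommGroup K]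
  [InnerProductSpace ℂ K] [CompleteSpace K] [NormedAddCommGroup K'] [InnerProductSpace ℂ K']
  [CompleteSpace K']

/-- fields of operators -/
theorem JL_fld (J : K ≃ₗᵢ[ℂ] K') {T : Lp K 2 μ →L[ℂ] Lp K 2 μ} {T' : Lp K' 2 μ →L[ℂ] Lp K' 2 μ}
    {A : X → K →L[ℂ] K} {A' : X → K' →L[ℂ] K'} (h : H790.Fld T A) (h' : H790.Fld T' A')
    (hJ : ∀ᵐ x ∂μ, ∀ v, J (A x v) = A' x (J v)) (ξ : Lp K 2 μ) :
    JL μ J (T ξ) = T' (JL μ J ξ) := by
  refine Lp.ext ?_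
  filter_upwards [JL_ae μ J (T ξ), h ξ, JL_ae μ J ξ, h' (JL μ J ξ), hJ] with x h1 h2 h3 h4 h5
  rw [h1, h2, h4, h3, h5]

theorem JL_comp (J : K ≃ₗᵢ[ℂ] K') {A : K →L[ℂ] K} {A' : K' →L[ℂ] K'}
    (hJ : ∀ v, J (A v) = A' (J v)) (ξ : Lp K 2 μ) :
    JL μ J (A.compLpL 2 μ ξ) = A'.compLpL 2 μ (JL μ J ξ) :=
  JL_fld J (H790.fld_comp A) (H790.fld_comp A') (Eventually.of_forall fun x => hJ) ξ

theorem JL_ind (J : K ≃ₗᵢ[ℂ] K') {S : Set X} (hS : MeasurableSet S) (ξ : Lp K 2 μ) :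
    JL μ J (H790.ind μ K S ξ) = H790.ind μ K' S (JL μ J ξ) := by
  classical
  refine JL_fld J (H790.fld_ind hS) (H790.fld_ind hS) (Eventually.of_forall fun x v => ?_) ξ
  split_ifs
  · rfl
  · exact map_zero J

theorem JL_const [IsFiniteMeasure μ] (J : K ≃ₗᵢ[ℂ] K') (v : K) :
    JL μ J (Lp.const 2 μ v) = Lp.const 2 μ (J v) := by
  refine Lp.ext ?_
  filter_upwards [JL_ae μ J (Lp.const 2 μ v), Lp.coeFn_const (p := 2) (μ := μ) v,
    Lp.coeFn_const (p := 2) (μ := μ) (J v)] with x h1 h2 h3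
  rw [h1, h2, h3]
  rfl

/-- from pointwise intertwining to conjugation -/
theorem uc_eq {H H' : Type} [NormedAddCommGroup H] [InnerProductSpace ℂ H] [CompleteSpace H]
    [NormedAddCommGroup H'] [InnerProductSpace ℂ H'] [CompleteSpace H'] (U : H ≃ₗᵢ[ℂ] H')
    {T : H →L[ℂ] H} {T' : H' →L[ℂ] H'} (h : ∀ ξ, U (T ξ) = T' (U ξ)) : H142.uc U T = T' := by
  refine ContinuousLinearMap.ext fun ξ => ?_
  obtain ⟨ξ, rfl⟩ := U.surjective ξ
  rw [uc_W, h]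

end lpg

section con

open Vale.Agent.P092.H790 Vale.Agent.P092.H85 Vale.Agent.P092.H103

variable {E : Type} [Group E] [TopologicalSpace E] [IsTopologicalGroup E] [LocallyCompactSpace E]
  [SecondCountableTopology E] [T2Space E] [MeasurableSpace E] [BorelSpace E]
  {Γ : Subgroup E} [DiscreteTopology Γ] [MeasurableSpace (E ⧸ Γ)] [BorelSpace (E ⧸ Γ)]
  {ν : Measure (E ⧸ Γ)} [IsProbabilityMeasure ν] [Countable Γ]
  (hν : ∀ g : E, ν.map (fun x => g • x) = ν)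
  {Λ : Type} [Group Λ] {α : Γ →* (Ell2 Λ →L[ℂ] Ell2 Λ)} (hα : Frame α)

/-- the space of the row model -/
abbrev K0 (ν : Measure (E ⧸ Γ)) : Type := Lp (Ell2 ((Γ × Γ) × Unit)) 2 ν

/-- the unitary from the row model to the picture -/
noncomputable def JP (ν : Measure (E ⧸ Γ)) [IsProbabilityMeasure ν] (hα : Frame α) :
    K0 ν ≃ₗᵢ[ℂ] RC.KK ν Λ := JL ν (JU hα)

/-- the induced representation of the row model -/
noncomputable def piV (g : E) : K0 ν →L[ℂ] K0 ν := Ri (cdat ν hν) (Vp hα) g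

theorem piV_ae (g : E) (ξ : K0 ν) :
    ⇑(piV hν hα g ξ) =ᵐ[ν] fun x => Vp hα (coc Γ g (g⁻¹ • x)) (ξ (g⁻¹ • x)) :=
  ri_ae (cdat ν hν) (R := Vp hα) (fun v => (arep_Vp hα).opNorm_le v) g ξ

theorem JP_pi (g : E) (ξ : K0 ν) : JP ν hα (piV hν hα g ξ) = RC.pic hν hα g (JP ν hα ξ) := by
  refine Lp.ext ?_
  have hm : MeasurePreserving (fun x : E ⧸ Γ => g⁻¹ • x) ν ν := ⟨smul_meas Γ g⁻¹, hν g⁻¹⟩
  filter_upwards [JL_ae ν (JU hα) (piV hν hα g ξ), piV_ae hν hα g ξ,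
    iro_ae hν (H839.adj_VV hα) g (JP ν hα ξ), ae_comp hm (JL_ae ν (JU hα) ξ)] with x h1 h2 h3 h4
  change (JL ν (JU hα) (piV hν hα g ξ)) x = (iro hν (SR.VV α) g (JP ν hα ξ)) x
  rw [h1, h2, h3, JU_V]
  congr 1
  exact h4.symm

theorem JP_lx₁ (g : Γ) (ξ : K0 ν) :
    JP ν hα ((baseL ν (Γ × Γ) Unit).lx (g, 1) ξ) = RC.lam₁ ν α g (JP ν hα ξ) :=
  JL_comp (JU hα) (JU_lx₁ hα g) ξ

theorem JP_lx₂ (g : Γ) (ξ : K0 ν) :
    JP ν hα ((baseL ν (Γ × Γ) Unit).lx (1, g) ξ) = RC.lam₂ ν α g (JP ν hα ξ) :=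
  JL_comp (JU hα) (JU_lx₂ hα g) ξ

theorem JP_ind {S : Set (E ⧸ Γ)} (hS : MeasurableSet S) (ξ : K0 ν) :
    JP ν hα (H790.ind ν _ S ξ) = H790.ind ν _ S (JP ν hα ξ) := JL_ind (JU hα) hS ξ

theorem JP_mp (S : Set Γ) (ξ : K0 ν) :
    JP ν hα ((baseL ν (Γ × Γ) Unit).mp (H538.ind fun x => x.1 ∈ S) ξ) =
      H368.mm ν (bas hα) Prod.fst S (JP ν hα ξ) :=
  JL_comp (JU hα) (JU_mp hα S) ξ

theorem JP_om (i : Unit) : JP ν hα (ept ν i) = RC.Om ν Λ := by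
  have h := JL_const (μ := ν) (JU hα) (ep i)
  rw [JU_ep] at h
  exact h

end con

end Vale.Agent.P092.H801
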